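import Vale.Agent.P141.H585.PairO
import Vale.Agent.P141.H619.MidSat
import Vale.Agent.P141.H92.PairSS
import Vale.Agent.P141.H784.PwStep

/-!
# P141, line (A): the pair `(B, C~)` at hub x1, both slots saturated

The node forms see only the weight `W` and the slot matrix `Θ`. In the gauge
`L = (c₁ Θ ; (W - c₁² Θ²)^(1/2))` the partner is `(b ; 0)` : its saturated Gram matrix does not move.

* `mid_ss` : static middle step, both slots saturated;
* `mid_comp` : the same for the compression of the slot to the rows of the partner;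
* `comp_pw` : this compression is `c₁² pw ν Θ W c`;
* `mid_pw` : the middle step in the letters of `pw`;
* `pairS_total` : the plane theorem.
-/

namespace Vale.Agent.P141.H797

open Finset Matrix Vale.Agent.P075 Vale.Agent.P141.PL Vale.Agent.P141.PL.H103
  Vale.Agent.P141.H103 Vale.Agent.P141.H389 Vale.Agent.P141.H585.PairCh Vale.Agent.P141.H585.PairO
  Vale.Agent.P141.H28 Vale.Agent.P141.H784

noncomputable section

section gen

variable {n : Type*} [Fintype n] [DecidableEq n]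

theorem phs_ps {s : ℝ} (X : Matrix n n ℝ) : phs s X = ps s⁻¹ X := by
  rw [phs, ps, inv_inv]

/-- **Static middle step, both slots saturated**, `s1`, `s2` squares of the levels. -/
theorem mid_ss {s1 s2 : ℝ} (h1 : 0 < s1) (h2 : 0 < s2) {X Y r : Matrix n n ℝ}
    (hX : X.PosSemidef) (hY : Y.PosSemidef) (hr : rᵀ = r) (hr2 : r * r = 1) :
    (phs s1 X * phs s2 Y).trace + (3 / 8) * (phs s1 X * (r * phs s2 Y * r)).trace
      ≤ (1 / 2) * (phs s1 (X + r * X * r) * phs s2 (Y + r * Y * r)).trace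
        + 11 * (s2 / s1) * gp s1 r X + 4 * (s1 / s2) * gp s2 r Y := by
  have hμ : 0 < s1⁻¹ := inv_pos.2 h1
  have hν : 0 < s2⁻¹ := inv_pos.2 h2
  have a := mid_lev h2 (H92.phs_psd h1 hX) (H92.phs_cap h1 hX) h1.le hY hr hr2
  have b := H619.MidSat.blk_sat hν hμ hX hY hr hr2
  have g1 : gp s1 r X = (ps s1⁻¹ X * (r * ps s1⁻¹ X * r)).trace := by
    rw [← phs_ps, gp, phs]
    simp only [Matrix.mul_smul, Matrix.smul_mul, trace_smul, smul_eq_mul]
    ring
  have g2 : gp s2 r Y = (ps s2⁻¹ Y * (r * ps s2⁻¹ Y * r)).trace := by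
    rw [← phs_ps, gp, phs]
    simp only [Matrix.mul_smul, Matrix.smul_mul, trace_smul, smul_eq_mul]
    ring
  rw [g1]
  rw [g2] at a ⊢
  simp only [phs_ps] at a ⊢
  have e1 : s1⁻¹ / s2⁻¹ = s2 / s1 := by field_simp
  have e2 : s2⁻¹ / s1⁻¹ = s1 / s2 := by field_simp
  rw [e1, e2] at b
  have e3 : s1 * s2⁻¹ = s1 / s2 := rfl
  rw [e3] at a
  linarith

end gen

section comp

variable {m q : Type*} [Fintype m] [DecidableEq m] [Fintype q] [DecidableEq q]

/-- functions of a matrix under an isometry -/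
theorem phi_iso {V : Matrix q m ℝ} (hV : Vᵀ * V = 1) {X : Matrix m m ℝ} (hX : X.PosSemidef) :
    phi (V * X * Vᵀ) = V * phi X * Vᵀ := by
  have hY : (V * X * Vᵀ).PosSemidef := psd_conj hX V
  have h3 : V * X = V * X * Vᵀ * V := by
    rw [Matrix.mul_assoc (V * X), hV, Matrix.mul_one]
  have h4 := H505.res_inter hX hY h3
  rw [← res_mul_phi hY, ← res_mul_phi hX]
  calc res (V * X * Vᵀ) * (V * X * Vᵀ) = (res (V * X * Vᵀ) * V) * X * Vᵀ := by
        simp only [Matrix.mul_assoc]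
    _ = V * (res X * X) * Vᵀ := by rw [← h4]; simp only [Matrix.mul_assoc]

theorem phs_iso {V : Matrix q m ℝ} (hV : Vᵀ * V = 1) {X : Matrix m m ℝ} (hX : X.PosSemidef)
    {s : ℝ} (hs : 0 < s) : phs s (V * X * Vᵀ) = V * phs s X * Vᵀ := by
  have e : s⁻¹ • (V * X * Vᵀ) = V * (s⁻¹ • X) * Vᵀ := by
    rw [Matrix.mul_smul, Matrix.smul_mul]
  rw [phs, phs, e, phi_iso hV (hX.smul (α := ℝ) (inv_pos.2 hs).le), Matrix.mul_smul,
    Matrix.smul_mul]

theorem tr_iso (V : Matrix q m ℝ) (P : Matrix m m ℝ) (Z : Matrix q q ℝ) :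
    (V * P * Vᵀ * Z).trace = (P * (Vᵀ * Z * V)).trace := by
  rw [Matrix.mul_assoc (V * P), Matrix.mul_assoc V, trace_mul_comm]
  simp only [Matrix.mul_assoc]

/-- **Static middle step for the compression of the slot.** -/
theorem mid_comp {s1 s2 : ℝ} (h1 : 0 < s1) (h2 : 0 < s2) {V : Matrix q m ℝ} (hV : Vᵀ * V = 1)
    {X r : Matrix m m ℝ} {Y r' : Matrix q q ℝ} (hX : X.PosSemidef) (hY : Y.PosSemidef)
    (hr : rᵀ = r) (hr' : r'ᵀ = r') (hr2' : r' * r' = 1) (hVr : r' * V = V * r) :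
    (phs s1 X * (Vᵀ * phs s2 Y * V)).trace
        + (3 / 8) * (phs s1 X * (r * (Vᵀ * phs s2 Y * V) * r)).trace
      ≤ (1 / 2) * (phs s1 (X + r * X * r) * (Vᵀ * phs s2 (Y + r' * Y * r') * V)).trace
        + 11 * (s2 / s1) * gp s1 r X + 4 * (s1 / s2) * gp s2 r' Y := by
  have hVr' : Vᵀ * r' = r * Vᵀ := by
    have := congrArg transpose hVr
    rwa [transpose_mul, transpose_mul, hr, hr'] at this
  have h := mid_ss h1 h2 (psd_conj hX V) hY hr' hr2'
  have hXr : (X + r * X * r).PosSemidef := hX.add (psd_conj_symm hX hr)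
  have e1 : V * X * Vᵀ + r' * (V * X * Vᵀ) * r' = V * (X + r * X * r) * Vᵀ := by
    have e : r' * (V * X * Vᵀ) * r' = (r' * V) * X * (Vᵀ * r') := by
      simp only [Matrix.mul_assoc]
    rw [e, hVr, hVr', Matrix.mul_add, Matrix.add_mul]
    simp only [Matrix.mul_assoc]
  rw [e1, phs_iso hV hX h1, phs_iso hV hXr h1, tr_iso, tr_iso, tr_iso] at h
  have e2 : Vᵀ * (r' * phs s2 Y * r') * V = r * (Vᵀ * phs s2 Y * V) * r := by
    have e : Vᵀ * (r' * phs s2 Y * r') * V = (Vᵀ * r') * phs s2 Y * (r' * V) := by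
      simp only [Matrix.mul_assoc]
    rw [e, hVr, hVr']
    simp only [Matrix.mul_assoc]
  rw [e2] at h
  have e3 : gp s1 r' (V * X * Vᵀ) = gp s1 r X := by
    have e : s1⁻¹ • (V * X * Vᵀ) = V * (s1⁻¹ • X) * Vᵀ := by
      rw [Matrix.mul_smul, Matrix.smul_mul]
    unfold gp
    rw [e, phi_iso hV (hX.smul (α := ℝ) (inv_pos.2 h1).le), tr_iso]
    have e4 : Vᵀ * (r' * (V * phi (s1⁻¹ • X) * Vᵀ) * r') * V = r * phi (s1⁻¹ • X) * r := by
      have e5 : Vᵀ * (r' * (V * phi (s1⁻¹ • X) * Vᵀ) * r') * V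
          = (Vᵀ * (r' * V)) * phi (s1⁻¹ • X) * ((Vᵀ * r') * V) := by
        simp only [Matrix.mul_assoc]
      have e6 : Vᵀ * (V * r) = r := by rw [← Matrix.mul_assoc, hV, Matrix.one_mul]
      have e7 : r * Vᵀ * V = r := by rw [Matrix.mul_assoc, hV, Matrix.mul_one]
      rw [e5, hVr, hVr', e6, e7]
    rw [e4]
  rw [e3] at h
  exact h

/-! ### Gauges -/

variable {p : Type*} [Fintype p] [DecidableEq p]

/-- push through for rectangular matrices -/
theorem phs_push {s : ℝ} (hs : 0 < s) (K : Matrix q p ℝ) :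
    phs s (K * Kᵀ) = K * res (s⁻¹ • (Kᵀ * K)) * Kᵀ := by
  have hX : (s⁻¹ • (Kᵀ * K)).PosSemidef := (psd_transpose_mul K).smul (inv_pos.2 hs).le
  have hY : (s⁻¹ • (K * Kᵀ)).PosSemidef := (psd_mul_transpose K).smul (inv_pos.2 hs).le
  have e3 : K * (s⁻¹ • (Kᵀ * K)) = s⁻¹ • (K * Kᵀ) * K := by
    simp only [Matrix.mul_smul, Matrix.smul_mul, Matrix.mul_assoc]
  have e4 := H505.res_inter hX hY e3
  rw [e4, phs, ← res_mul_phi hY, Matrix.mul_smul, smul_smul, mul_inv_cancel₀ hs.ne', one_smul,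
    Matrix.mul_assoc]

/-- the compression of the saturated stack in the gauge `V = (1 ; 0)` -/
theorem comp_pw {s c1 : ℝ} (hs : 0 < s) {V : Matrix q m ℝ} {K : Matrix q p ℝ}
    {Θ W : Matrix m m ℝ} (hΘ : Θᵀ = Θ) {c : Matrix m p ℝ} (hK : Kᵀ * K = cᵀ * W * c)
    (hVK : Vᵀ * K = c1 • (Θ * c)) :
    Vᵀ * phs s (K * Kᵀ) * V = c1 ^ 2 • pw s⁻¹ Θ W c := by
  have hKV : Kᵀ * V = c1 • (cᵀ * Θ) := by
    have := congrArg transpose hVK
    rwa [transpose_mul, transpose_transpose, transpose_smul, transpose_mul, hΘ] at this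
  have e : Vᵀ * (K * res (s⁻¹ • (Kᵀ * K)) * Kᵀ) * V
      = (Vᵀ * K) * res (s⁻¹ • (Kᵀ * K)) * (Kᵀ * V) := by
    simp only [Matrix.mul_assoc]
  rw [phs_push hs, e, hVK, hKV, hK, pw, res]
  simp only [Matrix.mul_smul, Matrix.smul_mul, smul_smul, Matrix.mul_assoc, pow_two]

/-- the own gap does not see the gauge -/
theorem gp_eq {s : ℝ} (hs : 0 < s) (K : Matrix q p ℝ) (r : Matrix q q ℝ) :
    gp s r (K * Kᵀ) = (res (s⁻¹ • (Kᵀ * K)) * (Kᵀ * r * K)
      * (res (s⁻¹ • (Kᵀ * K)) * (Kᵀ * r * K))).trace := by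
  have e : gp s r (K * Kᵀ) = (phs s (K * Kᵀ) * (r * phs s (K * Kᵀ) * r)).trace := by
    unfold gp phs
    simp only [Matrix.mul_smul, Matrix.smul_mul, trace_smul, smul_eq_mul]
    ring
  rw [e, phs_push hs]
  generalize res (s⁻¹ • (Kᵀ * K)) = Z
  have e2 : K * Z * Kᵀ * (r * (K * Z * Kᵀ) * r) = K * (Z * (Kᵀ * r * K) * Z * (Kᵀ * r)) := by
    simp only [Matrix.mul_assoc]
  rw [e2, trace_mul_comm]
  congr 1
  simp only [Matrix.mul_assoc]

theorem gp_gauge {q' : Type*} [Fintype q'] [DecidableEq q'] {s : ℝ} (hs : 0 < s)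
    {K : Matrix q p ℝ} {K' : Matrix q' p ℝ} {r : Matrix q q ℝ} {r' : Matrix q' q' ℝ}
    (h1 : Kᵀ * K = K'ᵀ * K') (h2 : Kᵀ * r * K = K'ᵀ * r' * K') :
    gp s r (K * Kᵀ) = gp s r' (K' * K'ᵀ) := by
  rw [gp_eq hs, gp_eq hs, h1, h2]

end comp

/-! ### The middle step in blocks -/

section block

variable {ι p : Type*} [Fintype ι] [DecidableEq ι] [Fintype p] [DecidableEq p]

/-- the stack in the gauge `(c₁ Θ ; S)` -/
def stG (c1 : ℝ) (Θ S : Matrix ι ι ℝ) : Matrix (ι ⊕ ι) ι ℝ := fromRows (c1 • Θ) S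

/-- the first component -/
def Vin (ι : Type*) [DecidableEq ι] : Matrix (ι ⊕ ι) ι ℝ := fromRows 1 0

theorem Vin_iso : (Vin ι)ᵀ * Vin ι = 1 := by
  rw [Vin, transpose_fromRows, fromCols_mul_fromRows]
  simp

theorem Vin_stG (c1 : ℝ) (Θ S : Matrix ι ι ℝ) : (Vin ι)ᵀ * stG c1 Θ S = c1 • Θ := by
  rw [Vin, stG, transpose_fromRows, fromCols_mul_fromRows]
  simp

theorem stG_gram {c1 : ℝ} {Θ S W : Matrix ι ι ℝ} (hΘ : Θᵀ = Θ) (hS : Sᵀ = S)
    (h : S * S = W - (c1 ^ 2) • (Θ * Θ)) : (stG c1 Θ S)ᵀ * stG c1 Θ S = W := by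
  rw [stG, transpose_fromRows, fromCols_mul_fromRows, transpose_smul, hΘ, hS, h,
    Matrix.mul_smul, Matrix.smul_mul, smul_smul]
  rw [← pow_two]
  abel

/-- the sign on both components -/
def r2 (r : Matrix ι ι ℝ) : Matrix (ι ⊕ ι) (ι ⊕ ι) ℝ := fromBlocks r 0 0 r

theorem r2_symm {r : Matrix ι ι ℝ} (hr : rᵀ = r) : (r2 r)ᵀ = r2 r := by
  rw [r2, fromBlocks_transpose, hr]
  simp

theorem r2_sq {r : Matrix ι ι ℝ} (hr : r * r = 1) : r2 r * r2 r = 1 := by
  rw [r2, fromBlocks_multiply, hr]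
  simp

theorem r2_Vin (r : Matrix ι ι ℝ) : r2 r * Vin ι = Vin ι * r := by
  rw [r2, Vin, fromBlocks_mul_fromRows, fromRows_mul]
  simp

theorem r2_stG {c1 : ℝ} {r Θ S : Matrix ι ι ℝ} (hΘ : r * Θ = Θ * r) (hS : r * S = S * r) :
    r2 r * stG c1 Θ S = stG c1 Θ S * r := by
  rw [r2, stG, fromBlocks_mul_fromRows, fromRows_mul]
  simp only [Matrix.zero_mul, add_zero, zero_add, Matrix.mul_smul, Matrix.smul_mul, smul_zero,
    hΘ, hS]

theorem k1 {c1 : ℝ} {Θ S W : Matrix ι ι ℝ} (gW : (stG c1 Θ S)ᵀ * stG c1 Θ S = W)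
    (d : Matrix ι p ℝ) : (stG c1 Θ S * d)ᵀ * (stG c1 Θ S * d) = dᵀ * W * d := by
  rw [transpose_mul]
  calc dᵀ * (stG c1 Θ S)ᵀ * (stG c1 Θ S * d) = dᵀ * ((stG c1 Θ S)ᵀ * stG c1 Θ S) * d := by
        simp only [Matrix.mul_assoc]
    _ = dᵀ * W * d := by rw [gW]

theorem k2 {c1 : ℝ} {Θ S : Matrix ι ι ℝ} (d : Matrix ι p ℝ) :
    (Vin ι)ᵀ * (stG c1 Θ S * d) = c1 • (Θ * d) := by
  rw [← Matrix.mul_assoc, Vin_stG, Matrix.smul_mul]

/-- **The middle step of the pair**, `r` commutes with `W`, `Θ`; `R`, `S` the roots of `W` and of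
`W - c₁² Θ²`. `c'` the columns of the two halves. -/
theorem mid_gauge {s1 s2 c1 : ℝ} (h1 : 0 < s1) (h2 : 0 < s2) {X r Θ W S R : Matrix ι ι ℝ}
    (hX : X.PosSemidef) (hr : rᵀ = r) (hr2 : r * r = 1) (hΘ : Θᵀ = Θ) (hS : Sᵀ = S) (hR : Rᵀ = R)
    (hSS : S * S = W - (c1 ^ 2) • (Θ * Θ)) (hRR : R * R = W) (rΘ : r * Θ = Θ * r)
    (rS : r * S = S * r) (rR : r * R = R * r) (c : Matrix ι p ℝ) {p' : Type*} [Fintype p']
    [DecidableEq p'] (c' : Matrix ι p' ℝ) (hc : c * cᵀ + r * (c * cᵀ) * r = c' * c'ᵀ) :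
    (phs s1 X * ((c1 ^ 2) • pw s2⁻¹ Θ W c)).trace
        + (3 / 8) * (phs s1 X * (r * ((c1 ^ 2) • pw s2⁻¹ Θ W c) * r)).trace
      ≤ (1 / 2) * (phs s1 (X + r * X * r) * ((c1 ^ 2) • pw s2⁻¹ Θ W c')).trace
        + 11 * (s2 / s1) * gp s1 r X + 4 * (s1 / s2) * gp s2 r (R * (c * cᵀ) * R) := by
  have gW := stG_gram (c1 := c1) hΘ hS hSS
  have h := mid_comp h1 h2 (V := Vin ι) Vin_iso (r' := r2 r) hX
    (psd_mul_transpose (stG c1 Θ S * c)) hr (r2_symm hr) (r2_sq hr2) (r2_Vin r)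
  have e1 : stG c1 Θ S * c * (stG c1 Θ S * c)ᵀ
      + r2 r * (stG c1 Θ S * c * (stG c1 Θ S * c)ᵀ) * r2 r
      = stG c1 Θ S * c' * (stG c1 Θ S * c')ᵀ := by
    have a := r2_stG (c1 := c1) rΘ rS
    have b : (stG c1 Θ S)ᵀ * r2 r = r * (stG c1 Θ S)ᵀ := by
      have := congrArg transpose a
      rwa [transpose_mul, transpose_mul, hr, r2_symm hr] at this
    have e : r2 r * (stG c1 Θ S * c * (stG c1 Θ S * c)ᵀ) * r2 r
        = (r2 r * stG c1 Θ S) * (c * cᵀ) * ((stG c1 Θ S)ᵀ * r2 r) := by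
      rw [transpose_mul]
      simp only [Matrix.mul_assoc]
    rw [e, a, b]
    calc stG c1 Θ S * c * (stG c1 Θ S * c)ᵀ
          + stG c1 Θ S * r * (c * cᵀ) * (r * (stG c1 Θ S)ᵀ)
        = stG c1 Θ S * (c * cᵀ + r * (c * cᵀ) * r) * (stG c1 Θ S)ᵀ := by
          rw [transpose_mul, Matrix.mul_add, Matrix.add_mul]
          simp only [Matrix.mul_assoc]
      _ = _ := by
          rw [hc, transpose_mul]
          simp only [Matrix.mul_assoc]
  have e2 : gp s2 (r2 r) (stG c1 Θ S * c * (stG c1 Θ S * c)ᵀ) = gp s2 r (R * (c * cᵀ) * R) := by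
    have e : R * (c * cᵀ) * R = (R * c) * (R * c)ᵀ := by
      rw [transpose_mul, hR]
      simp only [Matrix.mul_assoc]
    rw [e]
    refine gp_gauge h2 ?_ ?_
    · rw [k1 gW, transpose_mul, hR, ← hRR]
      simp only [Matrix.mul_assoc]
    · have a := r2_stG (c1 := c1) rΘ rS
      calc (stG c1 Θ S * c)ᵀ * r2 r * (stG c1 Θ S * c)
            = cᵀ * ((stG c1 Θ S)ᵀ * (r2 r * stG c1 Θ S)) * c := by
            rw [transpose_mul]
            simp only [Matrix.mul_assoc]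
        _ = cᵀ * (((stG c1 Θ S)ᵀ * stG c1 Θ S) * r) * c := by
            rw [a]
            simp only [Matrix.mul_assoc]
        _ = cᵀ * (R * (R * r)) * c := by
            rw [gW, ← hRR]
            simp only [Matrix.mul_assoc]
        _ = cᵀ * (R * (r * R)) * c := by rw [rR]
        _ = (R * c)ᵀ * r * (R * c) := by
            rw [transpose_mul, hR]
            simp only [Matrix.mul_assoc]
  rw [e1, e2, comp_pw h2 hΘ (k1 gW c) (k2 c), comp_pw h2 hΘ (k1 gW c') (k2 c')] at h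
  exact h

end block

/-! ### The plane theorem -/

section plane

variable {ι : ℕ → Type*} [∀ k, Fintype (ι k)] [∀ k, DecidableEq (ι k)]

/-- **The pair at hub x1, both slots saturated**: `V` Gram family of the static partner, `F` the
slot family (`F ≤ s2`), `e` the losses of the outer step of the slot against every positive
partner `≤ s1`, `g` the gains minus losses of the middle step. -/
theorem pairS_total {k₀ N : ℕ} (hkN : k₀ ≤ N) {R S T : ℤ} {c : ℕ → ℤ} (hc : H588.Pl c)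
    {s1 s2 : ℝ} (h1 : 0 < s1) {V F : ∀ k, ℕ → ℤ → ℤ → Matrix (ι k) (ι k) ℝ}
    {g e : ℕ → ℤ → ℤ → ℤ → ℝ}
    (pV : ∀ k a n m, (V k a n m).PosSemidef)
    (oV : ∀ k, k₀ ≤ k → k < N → ∀ n j,
      V k (k + 1) n j = (1 / 2 : ℝ) • (V k k (2 * n) j + V k k (2 * n + 1) j))
    (sF : ∀ k a n m, (F k a n m)ᵀ = F k a n m)
    (capF : ∀ k, k₀ ≤ k → k < N → ∀ n j,
      (s2 • (1 : Matrix (ι k) (ι k) ℝ) - F k (k + 1) n j).PosSemidef)
    (mid : ∀ k, k₀ ≤ k → k < N → ∀ n n' m,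
      (phs s1 (V (k + 1) (k + 1) n m) * F (k + 1) (k + 1) n' m).trace + g k n n' m
      ≤ (1 / 2) * ((phs s1 (V k (k + 1) n (2 * m)) * F k (k + 1) n' (2 * m)).trace
        + (phs s1 (V k (k + 1) n (2 * m + 1)) * F k (k + 1) n' (2 * m + 1)).trace))
    (out : ∀ k, k₀ ≤ k → k < N → ∀ n n' j,
      (mn (fun n => phs s1 (V k k n j)) n * F k (k + 1) n' j).trace
        ≤ (mn (fun n => phs s1 (V k k n j)) n * mn (fun n => F k k n j) n').trace
          + e k n n' j) :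
    ∑ k ∈ Ico k₀ N, GW N R S T (k + 1) (c (k + 1)) (g k)
      ≤ √(TV k₀ N R S (fun k a n m => phs s1 (V k a n m)) * TV k₀ N T S F)
        + s2 * s1⁻¹ * ∑ k ∈ Ico k₀ N, GW N R S T (k + 1) (c (k + 1)) (fun n _ m =>
          mh (fun j => dls s1 (V k k (2 * n) j) (V k k (2 * n + 1) j)) m)
        + ∑ k ∈ Ico k₀ N, GW N R S T (k + 1) (c (k + 1)) (fun n n' m =>
          mh (fun j => e k n n' j) m) := by
  have h := totalV_sqrt hkN hc (P := fun k a n m => phs s1 (V k a n m)) (Q := F)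
    (g := fun k n n' m => g k n n' m
      + ((-1) * (s2 * s1⁻¹ * mh (fun j => dls s1 (V k k (2 * n) j) (V k k (2 * n + 1) j)) m)
      + (-1) * mh (fun j => e k n n' j) m)) (R := R) (S := S) (T := T)
    (fun k a n m => H585.PairO.phs_symm h1 (pV k a n m)) sF
    (fun k k1 k2 n n' m => by
      have q := mid k k1 k2 n n' m
      have l : ∀ j, (phs s1 (V k (k + 1) n j) * F k (k + 1) n' j).trace
          ≤ (mn (fun n => phs s1 (V k k n j)) n * mn (fun n => F k k n j) n').trace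
            + s2 * s1⁻¹ * dls s1 (V k k (2 * n) j) (V k k (2 * n + 1) j) + e k n n' j := by
        intro j
        have a := H389.outer_loss h1 (capF k k1 k2 n' j) (pV k k (2 * n) j)
          (pV k k (2 * n + 1) j)
        have b := out k k1 k2 n n' j
        rw [← oV k k1 k2 n j, trace_mul_comm, trace_mul_comm (F k (k + 1) n' j)
          ((1 / 2 : ℝ) • (phs s1 (V k k (2 * n) j) + phs s1 (V k k (2 * n + 1) j)))] at a
        have e1 : mn (fun n => phs s1 (V k k n j)) n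
            = (1 / 2 : ℝ) • (phs s1 (V k k (2 * n) j) + phs s1 (V k k (2 * n + 1) j)) := rfl
        rw [← e1] at a
        linarith
      have l0 := l (2 * m)
      have l1 := l (2 * m + 1)
      simp only [mh]
      linarith)
  simp only [H585.PairO.GW_add, H585.PairO.GW_mul, Finset.sum_add_distrib, ← Finset.mul_sum] at h
  linarith

end plane

end

end Vale.Agent.P141.H797
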